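import Vale.Agent.P015.Chord

open Filter

/-- Walks on Gaussian primes with bounded steps are nowhere straight at large scales, uniformly over
all real lines; no infinite walk stays in a suitable unbounded tube around any real line. -/
theorem Vale.Agent.Results.P015.StraightWalks.result :
    -- (1) uniform strip theorem
    (∀ D W : ℝ, 0 ≤ D → 0 ≤ W → ∃ L : ℝ, 0 < L ∧
      ∀ a b c : ℝ, a ^ 2 + b ^ 2 = 1 → ∀ (m : ℕ) (z : ℕ → GaussianInt),
        (∀ n ≤ m, Irreducible (z n)) →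
        (∀ n < m, (((z (n + 1)).re : ℝ) - (z n).re) ^ 2 + (((z (n + 1)).im : ℝ) - (z n).im) ^ 2
          ≤ D ^ 2) →
        (∀ n ≤ m, |a * (z n).re + b * (z n).im - c| ≤ W) →
        (((z m).re : ℝ) - (z 0).re) ^ 2 + (((z m).im : ℝ) - (z 0).im) ^ 2 ≤ L ^ 2) ∧
    -- (2) chord form
    (∀ D W : ℝ, 0 ≤ D → 0 ≤ W → ∃ L : ℝ, 0 < L ∧
      ∀ (m : ℕ) (z : ℕ → GaussianInt),
        (∀ n ≤ m, Irreducible (z n)) →
        (∀ n < m, (((z (n + 1)).re : ℝ) - (z n).re) ^ 2 + (((z (n + 1)).im : ℝ) - (z n).im) ^ 2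
          ≤ D ^ 2) →
        L ^ 2 ≤ (((z m).re : ℝ) - (z 0).re) ^ 2 + (((z m).im : ℝ) - (z 0).im) ^ 2 →
        ∃ n ≤ m, W ^ 2 * ((((z m).re : ℝ) - (z 0).re) ^ 2 + (((z m).im : ℝ) - (z 0).im) ^ 2) <
          (((z n).re - (z 0).re) * (((z m).im : ℝ) - (z 0).im)
            - ((z n).im - (z 0).im) * (((z m).re : ℝ) - (z 0).re)) ^ 2) ∧
    -- (3) unbounded tubes around one line
    (∀ a b c W₀ : ℝ, (a ≠ 0 ∨ b ≠ 0) →
      ∃ f : ℝ → ℝ, Monotone f ∧ Tendsto f atTop atTop ∧ (∀ t, W₀ ≤ f t) ∧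
        ∀ (D : ℝ) (z : ℕ → GaussianInt), Function.Injective z → (∀ n, Irreducible (z n)) →
          (∀ n, (((z (n + 1)).re : ℝ) - (z n).re) ^ 2 + (((z (n + 1)).im : ℝ) - (z n).im) ^ 2
            ≤ D ^ 2) →
          (∀ n, |a * (z n).re + b * (z n).im - c| ≤ f |-b * (z n).re + a * (z n).im|) → False) :=
  ⟨Vale.Agent.P015.strip_theorem, Vale.Agent.P015.chord_theorem,
    fun a b c W₀ hab => Vale.Agent.P015.no_path_in_tube a b c hab W₀⟩
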